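import Mathlib

namespace Vale.Agent.Lib.P361

open Matrix

section ThermoAux

variable {ι : Type*} [Fintype ι] [DecidableEq ι]

/-- Splitting of the Gibbs exponential when the field term is diagonal and commutes with `H`. -/
theorem thermo_exp_split (H : Matrix ι ι ℂ) (w : ι → ℝ)
    (hcomm : H * diagonal (fun i => (w i : ℂ)) = diagonal (fun i => (w i : ℂ)) * H)
    (β t : ℝ) :
    NormedSpace.exp (((-β : ℝ) : ℂ) • (H - (t : ℂ) • diagonal (fun i => (w i : ℂ)))) =
      NormedSpace.exp (((-β : ℝ) : ℂ) • H) *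
        diagonal (fun i => ((Real.exp (β * t * w i) : ℝ) : ℂ)) := by
  have h1 : ((-β : ℝ) : ℂ) • (H - (t : ℂ) • diagonal (fun i => (w i : ℂ))) =
      ((-β : ℝ) : ℂ) • H + diagonal (fun i => ((β * t * w i : ℝ) : ℂ)) := by
    ext i j
    by_cases hij : i = j
    · subst hij
      simp only [Matrix.smul_apply, Matrix.sub_apply, diagonal_apply_eq, Matrix.add_apply,
        smul_eq_mul]
      push_cast
      ring
    · simp [hij]
  have h2 : Commute (((-β : ℝ) : ℂ) • H) (diagonal (fun i => ((β * t * w i : ℝ) : ℂ))) := by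
    have h3 : diagonal (fun i => ((β * t * w i : ℝ) : ℂ)) =
        ((β * t : ℝ) : ℂ) • diagonal (fun i => (w i : ℂ)) := by
      ext i j
      by_cases hij : i = j
      · subst hij; simp
      · simp [hij]
    rw [h3]
    apply Commute.smul_left
    apply Commute.smul_right
    exact hcomm
  rw [h1, Matrix.exp_add_of_commute _ _ h2, Matrix.exp_diagonal]
  congr 1
  congr 1
  funext i
  rw [Pi.coe_exp, ← Complex.exp_eq_exp_ℂ, Complex.ofReal_exp]

/-- Real part of the trace of a matrix times a real diagonal matrix. -/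
theorem thermo_trace_mul_diagonal (E : Matrix ι ι ℂ) (d : ι → ℝ) :
    (trace (E * diagonal (fun i => (d i : ℂ)))).re = ∑ i, (E i i).re * d i := by
  simp only [trace, diag_apply, mul_diagonal, Complex.re_sum, Complex.re_mul_ofReal]

/-- The diagonal of `exp (-β H)` is nonnegative with positive sum, for Hermitian `H`. -/
theorem thermo_diag [Nonempty ι] (H : Matrix ι ι ℂ) (hH : H.IsHermitian) (β : ℝ) :
    (∀ i, 0 ≤ ((NormedSpace.exp (((-β : ℝ) : ℂ) • H)) i i).re) ∧
      0 < ∑ i, ((NormedSpace.exp (((-β : ℝ) : ℂ) • H)) i i).re := by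
  set R : Matrix ι ι ℂ := NormedSpace.exp (((-(β / 2) : ℝ) : ℂ) • H) with hR
  have hRH : R.IsHermitian := by
    apply Matrix.IsHermitian.exp
    unfold Matrix.IsHermitian
    rw [conjTranspose_smul, hH.eq]
    congr 1
    exact Complex.conj_ofReal _
  have hE : NormedSpace.exp (((-β : ℝ) : ℂ) • H) = R * R := by
    rw [hR, ← Matrix.exp_add_of_commute _ _ (Commute.refl _), ← add_smul]
    congr 2
    push_cast
    ring
  have hdiag : ∀ i, ((NormedSpace.exp (((-β : ℝ) : ℂ) • H)) i i).re =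
      ∑ j, Complex.normSq (R i j) := by
    intro i
    rw [hE, Matrix.mul_apply, Complex.re_sum]
    refine Finset.sum_congr rfl fun j _ => ?_
    have : R j i = (starRingEnd ℂ) (R i j) := by
      have := hRH.apply j i
      rw [← this]
      rfl
    rw [this, Complex.mul_conj]
    exact Complex.ofReal_re _
  have hnn : ∀ i, 0 ≤ ((NormedSpace.exp (((-β : ℝ) : ℂ) • H)) i i).re := by
    intro i
    rw [hdiag i]
    exact Finset.sum_nonneg fun j _ => Complex.normSq_nonneg _
  refine ⟨hnn, ?_⟩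
  have hRne : R ≠ 0 := (Matrix.isUnit_exp _).ne_zero
  obtain ⟨i, j, hij⟩ : ∃ i j, R i j ≠ 0 := by
    by_contra hcon
    push Not at hcon
    apply hRne
    ext i j
    exact hcon i j
  apply Finset.sum_pos' (fun i _ => hnn i)
  refine ⟨i, Finset.mem_univ _, ?_⟩
  rw [hdiag i]
  apply Finset.sum_pos' (fun j _ => Complex.normSq_nonneg _)
  exact ⟨j, Finset.mem_univ _, Complex.normSq_pos.mpr hij⟩

omit [DecidableEq ι] in
/-- Jensen step: the log-partition function has slope at most the Gibbs mean. -/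
theorem thermo_jensen (a w : ι → ℝ) (ha : ∀ i, 0 ≤ a i) (hpos : 0 < ∑ i, a i) (c : ℝ) :
    0 < ∑ i, a i * Real.exp (c * w i) ∧
    Real.log (∑ i, a i * Real.exp (c * w i)) - Real.log (∑ i, a i) ≤
      c * ((∑ i, a i * (Real.exp (c * w i) * w i)) / (∑ i, a i * Real.exp (c * w i))) := by
  have hex : ∃ i, 0 < a i := by
    by_contra hcon
    push Not at hcon
    exact absurd hpos (not_lt.mpr (Finset.sum_nonpos fun i _ => hcon i))
  have hZ : 0 < ∑ i, a i * Real.exp (c * w i) := by
    apply Finset.sum_pos' (fun i _ => mul_nonneg (ha i) (Real.exp_pos _).le)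
    obtain ⟨i, hi⟩ := hex
    exact ⟨i, Finset.mem_univ _, mul_pos hi (Real.exp_pos _)⟩
  refine ⟨hZ, ?_⟩
  set Z := ∑ i, a i * Real.exp (c * w i) with hZdef
  have hJ := convexOn_exp.map_sum_le (t := Finset.univ)
    (w := fun i => a i * Real.exp (c * w i) / Z) (p := fun i => -(c * w i))
    (fun i _ => div_nonneg (mul_nonneg (ha i) (Real.exp_pos _).le) hZ.le)
    (by rw [← Finset.sum_div]; exact div_self hZ.ne') (fun i _ => Set.mem_univ _)
  have hL : ∑ i, (a i * Real.exp (c * w i) / Z) • (-(c * w i)) =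
      -(c * ((∑ i, a i * (Real.exp (c * w i) * w i)) / Z)) := by
    rw [Finset.sum_div, Finset.mul_sum, ← Finset.sum_neg_distrib]
    refine Finset.sum_congr rfl fun i _ => ?_
    simp only [smul_eq_mul]
    ring
  have hRr : ∑ i, (a i * Real.exp (c * w i) / Z) • Real.exp (-(c * w i)) =
      (∑ i, a i) / Z := by
    rw [Finset.sum_div]
    refine Finset.sum_congr rfl fun i _ => ?_
    simp only [smul_eq_mul]
    rw [Real.exp_neg]
    field_simp
  rw [hL, hRr] at hJ
  have hlog := Real.log_le_log (Real.exp_pos _) hJ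
  rw [Real.log_exp, Real.log_div hpos.ne' hZ.ne'] at hlog
  linarith

end ThermoAux

/-- THERMO BLOCK (helper61): Gibbs variational / convexity bound for a Hermitian `H` commuting
with a real diagonal `M`. -/
theorem pressure_slope {ι : Type*} [Fintype ι] [DecidableEq ι] [Nonempty ι]
    (H : Matrix ι ι ℂ) (hH : H.IsHermitian) (w : ι → ℝ)
    (hcomm : H * diagonal (fun i => (w i : ℂ)) = diagonal (fun i => (w i : ℂ)) * H)
    (β h : ℝ) (hβ : 0 < β) (hh : 0 < h) :
    0 < (trace (NormedSpace.exp (((-β : ℝ) : ℂ) •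
        (H - (h : ℂ) • diagonal (fun i => (w i : ℂ)))))).re ∧
    0 < (trace (NormedSpace.exp (((-β : ℝ) : ℂ) •
        (H - ((0 : ℝ) : ℂ) • diagonal (fun i => (w i : ℂ)))))).re ∧
    Real.log (trace (NormedSpace.exp (((-β : ℝ) : ℂ) •
        (H - (h : ℂ) • diagonal (fun i => (w i : ℂ)))))).re -
      Real.log (trace (NormedSpace.exp (((-β : ℝ) : ℂ) •
        (H - ((0 : ℝ) : ℂ) • diagonal (fun i => (w i : ℂ)))))).re ≤
    β * h * ((trace (NormedSpace.exp (((-β : ℝ) : ℂ) •
        (H - (h : ℂ) • diagonal (fun i => (w i : ℂ)))) * diagonal (fun i => (w i : ℂ)))).re /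
      (trace (NormedSpace.exp (((-β : ℝ) : ℂ) •
        (H - (h : ℂ) • diagonal (fun i => (w i : ℂ)))))).re) := by
  have _ := hβ
  have _ := hh
  obtain ⟨ha, hpos⟩ := thermo_diag H hH β
  obtain ⟨hZ, hJ⟩ := thermo_jensen
    (fun i => ((NormedSpace.exp (((-β : ℝ) : ℂ) • H)) i i).re) w ha hpos (β * h)
  have e1 : (trace (NormedSpace.exp (((-β : ℝ) : ℂ) •
        (H - (h : ℂ) • diagonal (fun i => (w i : ℂ)))))).re =
      ∑ i, ((NormedSpace.exp (((-β : ℝ) : ℂ) • H)) i i).re * Real.exp (β * h * w i) := by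
    rw [thermo_exp_split H w hcomm β h, thermo_trace_mul_diagonal]
  have e0 : (trace (NormedSpace.exp (((-β : ℝ) : ℂ) •
        (H - ((0 : ℝ) : ℂ) • diagonal (fun i => (w i : ℂ)))))).re =
      ∑ i, ((NormedSpace.exp (((-β : ℝ) : ℂ) • H)) i i).re := by
    rw [thermo_exp_split H w hcomm β 0, thermo_trace_mul_diagonal]
    simp
  have e2 : (trace (NormedSpace.exp (((-β : ℝ) : ℂ) •
        (H - (h : ℂ) • diagonal (fun i => (w i : ℂ)))) * diagonal (fun i => (w i : ℂ)))).re =
      ∑ i, ((NormedSpace.exp (((-β : ℝ) : ℂ) • H)) i i).re *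
        (Real.exp (β * h * w i) * w i) := by
    rw [thermo_exp_split H w hcomm β h, mul_assoc, diagonal_mul_diagonal]
    have := thermo_trace_mul_diagonal (NormedSpace.exp (((-β : ℝ) : ℂ) • H))
      (fun i => Real.exp (β * h * w i) * w i)
    simp only [Complex.ofReal_mul] at this
    exact this
  rw [e1, e0, e2]
  exact ⟨hZ, hpos, hJ⟩

end Vale.Agent.Lib.P361
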