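import Vale.Agent.Lib.P361.Final

namespace Vale.Agent.Lib.P361

open Matrix

/-- Convexity of `h ↦ log ∑ a_i exp (c h w_i)` for nonnegative weights (Hölder, in the form of
the weighted inequality between geometric and arithmetic means). -/
theorem thermo_logsumexp_convex {ι : Type*} [Fintype ι] (a w : ι → ℝ) (ha : ∀ i, 0 ≤ a i)
    (hpos : 0 < ∑ i, a i) (c : ℝ) :
    ConvexOn ℝ Set.univ (fun h : ℝ => Real.log (∑ i, a i * Real.exp (c * h * w i))) := by
  refine ⟨convex_univ, ?_⟩
  intro x _ y _ s t hs ht hst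
  simp only [smul_eq_mul]
  have hex : ∃ i, 0 < a i := by
    by_contra hcon
    push Not at hcon
    exact absurd hpos (not_lt.mpr (Finset.sum_nonpos fun i _ => hcon i))
  have hZ : ∀ h : ℝ, 0 < ∑ i, a i * Real.exp (c * h * w i) := by
    intro h
    apply Finset.sum_pos' (fun i _ => mul_nonneg (ha i) (Real.exp_pos _).le)
    obtain ⟨i, hi⟩ := hex
    exact ⟨i, Finset.mem_univ _, mul_pos hi (Real.exp_pos _)⟩
  obtain ⟨U, hU⟩ : ∃ U : ℝ, U = ∑ i, a i * Real.exp (c * x * w i) := ⟨_, rfl⟩
  obtain ⟨V, hV⟩ : ∃ V : ℝ, V = ∑ i, a i * Real.exp (c * y * w i) := ⟨_, rfl⟩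
  have hUpos : 0 < U := hU ▸ hZ x
  have hVpos : 0 < V := hV ▸ hZ y
  have hUs : 0 < U ^ s := Real.rpow_pos_of_pos hUpos s
  have hVt : 0 < V ^ t := Real.rpow_pos_of_pos hVpos t
  have hterm : ∀ i, a i * Real.exp (c * (s * x + t * y) * w i) ≤
      U ^ s * V ^ t * (s * (a i * Real.exp (c * x * w i) / U) +
        t * (a i * Real.exp (c * y * w i) / V)) := by
    intro i
    have hu0 : 0 ≤ a i * Real.exp (c * x * w i) := mul_nonneg (ha i) (Real.exp_pos _).le
    have hv0 : 0 ≤ a i * Real.exp (c * y * w i) := mul_nonneg (ha i) (Real.exp_pos _).le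
    have hu : 0 ≤ a i * Real.exp (c * x * w i) / U := div_nonneg hu0 hUpos.le
    have hv : 0 ≤ a i * Real.exp (c * y * w i) / V := div_nonneg hv0 hVpos.le
    have hamgm := Real.geom_mean_le_arith_mean2_weighted hs ht hu hv hst
    have h1 : a i ^ s * a i ^ t = a i := by
      rw [← Real.rpow_add' (ha i) (by rw [hst]; exact one_ne_zero), hst, Real.rpow_one]
    have h2 : Real.exp (c * x * w i * s) * Real.exp (c * y * w i * t) =
        Real.exp (c * (s * x + t * y) * w i) := by
      rw [← Real.exp_add]; congr 1; ring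
    have heq : a i * Real.exp (c * (s * x + t * y) * w i) =
        U ^ s * V ^ t * ((a i * Real.exp (c * x * w i) / U) ^ s *
          (a i * Real.exp (c * y * w i) / V) ^ t) := by
      rw [Real.div_rpow hu0 hUpos.le, Real.div_rpow hv0 hVpos.le,
        Real.mul_rpow (ha i) (Real.exp_pos _).le, Real.mul_rpow (ha i) (Real.exp_pos _).le,
        ← Real.exp_mul, ← Real.exp_mul]
      have e1 : U ^ s * V ^ t * (a i ^ s * Real.exp (c * x * w i * s) / U ^ s *
          (a i ^ t * Real.exp (c * y * w i * t) / V ^ t)) =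
          (a i ^ s * a i ^ t) * (Real.exp (c * x * w i * s) * Real.exp (c * y * w i * t)) := by
        field_simp
      rw [e1, h1, h2]
    rw [heq]
    exact mul_le_mul_of_nonneg_left hamgm (mul_pos hUs hVt).le
  have hsum : ∑ i, a i * Real.exp (c * (s * x + t * y) * w i) ≤ U ^ s * V ^ t := by
    calc ∑ i, a i * Real.exp (c * (s * x + t * y) * w i)
        ≤ ∑ i, U ^ s * V ^ t * (s * (a i * Real.exp (c * x * w i) / U) +
            t * (a i * Real.exp (c * y * w i) / V)) := Finset.sum_le_sum fun i _ => hterm i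
      _ = U ^ s * V ^ t * (s * (U / U) + t * (V / V)) := by
          rw [← Finset.mul_sum, Finset.sum_add_distrib, ← Finset.mul_sum, ← Finset.mul_sum,
            ← Finset.sum_div, ← Finset.sum_div, ← hU, ← hV]
      _ = U ^ s * V ^ t := by
          rw [div_self hUpos.ne', div_self hVpos.ne', mul_one, mul_one, hst, mul_one]
  calc Real.log (∑ i, a i * Real.exp (c * (s * x + t * y) * w i))
      ≤ Real.log (U ^ s * V ^ t) := Real.log_le_log (hZ _) hsum
    _ = s * Real.log U + t * Real.log V := by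
        rw [Real.log_mul hUs.ne' hVt.ne', Real.log_rpow hUpos, Real.log_rpow hVpos]
    _ = s * Real.log (∑ i, a i * Real.exp (c * x * w i)) +
        t * Real.log (∑ i, a i * Real.exp (c * y * w i)) := by rw [hU, hV]

/-- The partition function as a sum of exponentials in the field `h`. -/
theorem Zf_eq_sum (d N : ℕ) (β h : ℝ) :
    Zf d N β h = ∑ σ, ((NormedSpace.exp (((-β : ℝ) : ℂ) • hamiltonian d N)) σ σ).re *
      Real.exp (β * h * wmag d N σ) := by
  have hcomm := hamiltonian_comm_magnetization d N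
  rw [magnetization_diag] at hcomm
  unfold Zf rho
  rw [magnetization_diag, thermo_exp_split (hamiltonian d N) (wmag d N) hcomm β h,
    thermo_trace_mul_diagonal]

/-- CONVEXITY BLOCK (helper61): the finite-volume pressure is convex in the field `h`. -/
theorem pressure_convex (d N : ℕ) (hd : 0 < d) (b : ℝ) (hb : 0 < b) :
    ConvexOn ℝ Set.univ (fun h => pressure d N b h) := by
  have hne : Nonempty (Site N → Fin d) := ⟨fun _ => ⟨0, hd⟩⟩
  obtain ⟨ha, hpos⟩ := thermo_diag (hamiltonian d N) (hamiltonian_hermitian d N) b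
  have hconv := thermo_logsumexp_convex
    (fun σ => ((NormedSpace.exp (((-b : ℝ) : ℂ) • hamiltonian d N)) σ σ).re) (wmag d N) ha hpos b
  have hV : (0 : ℝ) < (2 * (N : ℝ) + 1) ^ 3 := by positivity
  have heq : (fun h => pressure d N b h) = fun h => (b * (2 * (N : ℝ) + 1) ^ 3)⁻¹ •
      Real.log (∑ σ, ((NormedSpace.exp (((-b : ℝ) : ℂ) • hamiltonian d N)) σ σ).re *
        Real.exp (b * h * wmag d N σ)) := by
    funext h
    rw [pressure_eq, Zf_eq_sum, smul_eq_mul, div_eq_inv_mul]
  rw [heq]
  exact hconv.smul (inv_nonneg.mpr (mul_pos hb hV).le)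

end Vale.Agent.Lib.P361
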