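import Vale.Agent.Lib.P361.Lift

namespace Vale.Agent.Lib.P361

open Matrix

section LiftBasic

variable {L0 L : Type*} {d : ℕ}

theorem liftOp_of_agree (g : L0 → L) (a : Matrix (L0 → Fin d) (L0 → Fin d) ℂ) {σ τ : L → Fin d}
    (h : ∀ y, y ∉ Set.range g → σ y = τ y) : liftOp g a σ τ = a (σ ∘ g) (τ ∘ g) := by
  unfold liftOp
  exact if_pos h

theorem liftOp_of_not_agree (g : L0 → L) (a : Matrix (L0 → Fin d) (L0 → Fin d) ℂ)
    {σ τ : L → Fin d} (h : ¬ ∀ y, y ∉ Set.range g → σ y = τ y) : liftOp g a σ τ = 0 := by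
  unfold liftOp
  exact if_neg h

theorem liftOp_zero (g : L0 → L) :
    liftOp g (0 : Matrix (L0 → Fin d) (L0 → Fin d) ℂ) = 0 := by
  ext σ τ
  by_cases h : ∀ y, y ∉ Set.range g → σ y = τ y
  · rw [liftOp_of_agree g _ h]; rfl
  · rw [liftOp_of_not_agree g _ h]; rfl

theorem liftOp_add (g : L0 → L) (a b : Matrix (L0 → Fin d) (L0 → Fin d) ℂ) :
    liftOp g (a + b) = liftOp g a + liftOp g b := by
  ext σ τ
  by_cases h : ∀ y, y ∉ Set.range g → σ y = τ y
  · rw [Matrix.add_apply, liftOp_of_agree g _ h, liftOp_of_agree g _ h, liftOp_of_agree g _ h,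
      Matrix.add_apply]
  · rw [Matrix.add_apply, liftOp_of_not_agree g _ h, liftOp_of_not_agree g _ h,
      liftOp_of_not_agree g _ h, add_zero]

theorem liftOp_smul (g : L0 → L) (c : ℂ) (a : Matrix (L0 → Fin d) (L0 → Fin d) ℂ) :
    liftOp g (c • a) = c • liftOp g a := by
  ext σ τ
  by_cases h : ∀ y, y ∉ Set.range g → σ y = τ y
  · rw [Matrix.smul_apply, liftOp_of_agree g _ h, liftOp_of_agree g _ h, Matrix.smul_apply]
  · rw [Matrix.smul_apply, liftOp_of_not_agree g _ h, liftOp_of_not_agree g _ h, smul_zero]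

theorem liftOp_neg (g : L0 → L) (a : Matrix (L0 → Fin d) (L0 → Fin d) ℂ) :
    liftOp g (-a) = -liftOp g a := by
  ext σ τ
  by_cases h : ∀ y, y ∉ Set.range g → σ y = τ y
  · rw [Matrix.neg_apply, liftOp_of_agree g _ h, liftOp_of_agree g _ h, Matrix.neg_apply]
  · rw [Matrix.neg_apply, liftOp_of_not_agree g _ h, liftOp_of_not_agree g _ h, neg_zero]

theorem liftOp_sub (g : L0 → L) (a b : Matrix (L0 → Fin d) (L0 → Fin d) ℂ) :
    liftOp g (a - b) = liftOp g a - liftOp g b := by
  rw [sub_eq_add_neg, liftOp_add, liftOp_neg, ← sub_eq_add_neg]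

theorem liftOp_sum {κ : Type*} (g : L0 → L) (s : Finset κ)
    (f : κ → Matrix (L0 → Fin d) (L0 → Fin d) ℂ) :
    liftOp g (∑ k ∈ s, f k) = ∑ k ∈ s, liftOp g (f k) := by
  classical
  induction s using Finset.induction_on with
  | empty => simp [liftOp_zero]
  | insert k s hk ih => rw [Finset.sum_insert hk, Finset.sum_insert hk, liftOp_add, ih]

/-- (b) functoriality of the lift. -/
theorem liftOp_comp {L1 : Type*} (h : L1 → L) (hh : Function.Injective h) (g' : L0 → L1)
    (a : Matrix (L0 → Fin d) (L0 → Fin d) ℂ) :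
    liftOp h (liftOp g' a) = liftOp (h ∘ g') a := by
  ext σ τ
  by_cases h1 : ∀ y, y ∉ Set.range h → σ y = τ y
  · rw [liftOp_of_agree h _ h1]
    by_cases h2 : ∀ x, x ∉ Set.range g' → (σ ∘ h) x = (τ ∘ h) x
    · have h3 : ∀ y, y ∉ Set.range (h ∘ g') → σ y = τ y := by
        intro y hy
        by_cases hyr : y ∈ Set.range h
        · obtain ⟨x, rfl⟩ := hyr
          exact h2 x (fun ⟨x0, hx0⟩ => hy ⟨x0, by rw [Function.comp_apply, hx0]⟩)
        · exact h1 y hyr
      rw [liftOp_of_agree g' _ h2, liftOp_of_agree (h ∘ g') _ h3]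
      rfl
    · have h3 : ¬ ∀ y, y ∉ Set.range (h ∘ g') → σ y = τ y := by
        intro h3
        apply h2
        intro x hx
        exact h3 (h x) (fun ⟨x0, hx0⟩ => hx ⟨x0, hh hx0⟩)
      rw [liftOp_of_not_agree g' _ h2, liftOp_of_not_agree (h ∘ g') _ h3]
  · have h3 : ¬ ∀ y, y ∉ Set.range (h ∘ g') → σ y = τ y := by
      intro h3
      apply h1
      intro y hy
      exact h3 y (fun ⟨x0, hx0⟩ => hy ⟨g' x0, hx0⟩)
    rw [liftOp_of_not_agree h _ h1, liftOp_of_not_agree (h ∘ g') _ h3]

end LiftBasic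

section LiftRing

variable {L0 L : Type*} [Fintype L0] [DecidableEq L0] [Fintype L] [DecidableEq L] {d : ℕ}

omit [DecidableEq L0] in
theorem liftOp_one (g : L0 → L) :
    liftOp g (1 : Matrix (L0 → Fin d) (L0 → Fin d) ℂ) = 1 := by
  ext σ τ
  by_cases hστ : σ = τ
  · subst hστ
    rw [liftOp_of_agree g _ (fun _ _ => rfl), Matrix.one_apply_eq, Matrix.one_apply_eq]
  · rw [Matrix.one_apply_ne hστ]
    by_cases h : ∀ y, y ∉ Set.range g → σ y = τ y
    · rw [liftOp_of_agree g _ h]
      apply Matrix.one_apply_ne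
      intro hcomp
      apply hστ
      funext y
      by_cases hy : y ∈ Set.range g
      · obtain ⟨x, rfl⟩ := hy
        exact congrFun hcomp x
      · exact h y hy
    · exact liftOp_of_not_agree g _ h

theorem liftOp_mul (g : L0 → L) (hg : Function.Injective g)
    (a b : Matrix (L0 → Fin d) (L0 → Fin d) ℂ) :
    liftOp g (a * b) = liftOp g a * liftOp g b := by
  ext σ τ
  rw [Matrix.mul_apply]
  by_cases h : ∀ y, y ∉ Set.range g → σ y = τ y
  · rw [liftOp_of_agree g _ h, Matrix.mul_apply]
    apply Finset.sum_of_injOn (fun ρ0 => Function.extend g ρ0 σ)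
    · intro ρ0 _ ρ0' _ heq
      funext x
      have h1 := congrFun heq (g x)
      simpa [hg.extend_apply] using h1
    · intro _ _
      exact Finset.mem_coe.mpr (Finset.mem_univ _)
    · intro ρ _ hρ
      by_cases h1 : ∀ y, y ∉ Set.range g → σ y = ρ y
      · exfalso
        apply hρ
        refine ⟨ρ ∘ g, Finset.mem_coe.mpr (Finset.mem_univ _), ?_⟩
        funext y
        by_cases hy : y ∈ Set.range g
        · obtain ⟨x, rfl⟩ := hy
          simp [hg.extend_apply]
        · show Function.extend g (ρ ∘ g) σ y = ρ y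
          rw [Function.extend_apply' _ _ _ hy]
          exact h1 y hy
      · rw [liftOp_of_not_agree g _ h1, zero_mul]
    · intro ρ0 _
      have hcomp : (Function.extend g ρ0 σ) ∘ g = ρ0 := by
        funext x
        simp [hg.extend_apply]
      have h1 : ∀ y, y ∉ Set.range g → σ y = Function.extend g ρ0 σ y :=
        fun y hy => (Function.extend_apply' _ _ _ hy).symm
      have h2 : ∀ y, y ∉ Set.range g → Function.extend g ρ0 σ y = τ y := fun y hy => by
        rw [Function.extend_apply' _ _ _ hy]; exact h y hy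
      rw [liftOp_of_agree g _ h1, liftOp_of_agree g _ h2, hcomp]
  · rw [liftOp_of_not_agree g _ h]
    symm
    apply Finset.sum_eq_zero
    intro ρ _
    by_cases h1 : ∀ y, y ∉ Set.range g → σ y = ρ y
    · by_cases h2 : ∀ y, y ∉ Set.range g → ρ y = τ y
      · exact absurd (fun y hy => (h1 y hy).trans (h2 y hy)) h
      · rw [liftOp_of_not_agree g _ h2, mul_zero]
    · rw [liftOp_of_not_agree g _ h1, zero_mul]

/-- (1) the lift of a one-site operator is a one-site operator. -/
theorem liftOp_siteOp (g : L0 → L) (hg : Function.Injective g) (x : L0)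
    (a : Matrix (Fin d) (Fin d) ℂ) : liftOp g (siteOp x a) = siteOp (g x) a := by
  ext σ τ
  by_cases h : ∀ y, y ∉ Set.range g → σ y = τ y
  · rw [liftOp_of_agree g _ h]
    unfold siteOp
    by_cases h2 : ∀ y, y ≠ x → (σ ∘ g) y = (τ ∘ g) y
    · have h3 : ∀ y, y ≠ g x → σ y = τ y := by
        intro y hy
        by_cases hyr : y ∈ Set.range g
        · obtain ⟨x', rfl⟩ := hyr
          exact h2 x' (fun hx => hy (by rw [hx]))
        · exact h y hyr
      rw [if_pos h2, if_pos h3]
      rfl
    · have h3 : ¬ ∀ y, y ≠ g x → σ y = τ y := by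
        intro h3
        apply h2
        intro y hy
        exact h3 (g y) (fun hgy => hy (hg hgy))
      rw [if_neg h2, if_neg h3]
  · rw [liftOp_of_not_agree g _ h]
    unfold siteOp
    have h3 : ¬ ∀ y, y ≠ g x → σ y = τ y := by
      intro h3
      apply h
      intro y hy
      exact h3 y (fun hyx => hy ⟨x, hyx.symm⟩)
    rw [if_neg h3]

/-- The lift along an injective map, as a ring homomorphism. -/
noncomputable def liftOpHom (g : L0 → L) (hg : Function.Injective g) :
    Matrix (L0 → Fin d) (L0 → Fin d) ℂ →+* Matrix (L → Fin d) (L → Fin d) ℂ where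
  toFun := liftOp g
  map_one' := liftOp_one g
  map_mul' := liftOp_mul g hg
  map_zero' := liftOp_zero g
  map_add' := liftOp_add g

theorem liftOpHom_continuous (g : L0 → L) (hg : Function.Injective g) :
    Continuous (liftOpHom (d := d) g hg) := by
  apply continuous_matrix
  intro σ τ
  show Continuous fun a : Matrix (L0 → Fin d) (L0 → Fin d) ℂ => liftOp g a σ τ
  by_cases h : ∀ y, y ∉ Set.range g → σ y = τ y
  · simp only [liftOp_of_agree g _ h]
    exact continuous_id.matrix_elem _ _
  · simp only [liftOp_of_not_agree g _ h]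
    exact continuous_const

set_option backward.isDefEq.respectTransparency false in
theorem liftOpHom_exp (g : L0 → L) (hg : Function.Injective g)
    (a : Matrix (L0 → Fin d) (L0 → Fin d) ℂ) :
    liftOpHom g hg (NormedSpace.exp a) = NormedSpace.exp (liftOpHom g hg a) :=
  open scoped Matrix.Norms.Operator in
    NormedSpace.map_exp (liftOpHom g hg) (liftOpHom_continuous g hg) a

/-- (a) the lift commutes with the matrix exponential. -/
theorem liftOp_exp (g : L0 → L) (hg : Function.Injective g)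
    (a : Matrix (L0 → Fin d) (L0 → Fin d) ℂ) :
    liftOp g (NormedSpace.exp a) = NormedSpace.exp (liftOp g a) :=
  liftOpHom_exp g hg a

end LiftRing

section Blocks

variable {L1 L2 L : Type*} [Fintype L1] [DecidableEq L1] [Fintype L2] [DecidableEq L2]
  [Fintype L] [DecidableEq L] {d : ℕ}

omit [DecidableEq L1] [DecidableEq L2] in
/-- (c)/(d) the product of lifts along maps with complementary ranges is a tensor product. -/
theorem liftOp_mul_liftOp_apply (g1 : L1 → L) (g2 : L2 → L)
    (hc : ∀ y, y ∈ Set.range g1 ↔ y ∉ Set.range g2)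
    (a : Matrix (L1 → Fin d) (L1 → Fin d) ℂ) (b : Matrix (L2 → Fin d) (L2 → Fin d) ℂ)
    (σ τ : L → Fin d) :
    (liftOp g1 a * liftOp g2 b) σ τ = a (σ ∘ g1) (τ ∘ g1) * b (σ ∘ g2) (τ ∘ g2) := by
  classical
  rw [Matrix.mul_apply]
  obtain ⟨ρs, hρs⟩ : ∃ ρs : L → Fin d, ρs = fun y => if y ∈ Set.range g1 then τ y else σ y :=
    ⟨_, rfl⟩
  rw [Finset.sum_eq_single ρs]
  · have h1 : ∀ y, y ∉ Set.range g1 → σ y = ρs y := fun y hy => by
      rw [hρs]
      show σ y = if y ∈ Set.range g1 then τ y else σ y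
      rw [if_neg hy]
    have h2 : ∀ y, y ∉ Set.range g2 → ρs y = τ y := fun y hy => by
      have hy1 : y ∈ Set.range g1 := (hc y).mpr hy
      rw [hρs]
      show (if y ∈ Set.range g1 then τ y else σ y) = τ y
      rw [if_pos hy1]
    have e1 : ρs ∘ g1 = τ ∘ g1 := by
      funext x
      have hx : g1 x ∈ Set.range g1 := ⟨x, rfl⟩
      rw [hρs]
      show (if g1 x ∈ Set.range g1 then τ (g1 x) else σ (g1 x)) = τ (g1 x)
      rw [if_pos hx]
    have e2 : ρs ∘ g2 = σ ∘ g2 := by
      funext x
      have hx : g2 x ∉ Set.range g1 := fun hx => ((hc _).mp hx) ⟨x, rfl⟩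
      rw [hρs]
      show (if g2 x ∈ Set.range g1 then τ (g2 x) else σ (g2 x)) = σ (g2 x)
      rw [if_neg hx]
    rw [liftOp_of_agree g1 _ h1, liftOp_of_agree g2 _ h2, e1, e2]
  · intro ρ _ hne
    by_cases h1 : ∀ y, y ∉ Set.range g1 → σ y = ρ y
    · by_cases h2 : ∀ y, y ∉ Set.range g2 → ρ y = τ y
      · exfalso
        apply hne
        rw [hρs]
        funext y
        by_cases hy : y ∈ Set.range g1
        · rw [if_pos hy]; exact h2 y ((hc y).mp hy)
        · rw [if_neg hy]; exact (h1 y hy).symm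
      · rw [liftOp_of_not_agree g2 _ h2, mul_zero]
    · rw [liftOp_of_not_agree g1 _ h1, zero_mul]
  · intro h
    exact absurd (Finset.mem_univ _) h

omit [DecidableEq L1] [DecidableEq L2] in
/-- (c) lifts along maps with complementary ranges commute. -/
theorem liftOp_commute (g1 : L1 → L) (g2 : L2 → L)
    (hc : ∀ y, y ∈ Set.range g1 ↔ y ∉ Set.range g2)
    (a : Matrix (L1 → Fin d) (L1 → Fin d) ℂ) (b : Matrix (L2 → Fin d) (L2 → Fin d) ℂ) :
    Commute (liftOp g1 a) (liftOp g2 b) := by
  have hc' : ∀ y, y ∈ Set.range g2 ↔ y ∉ Set.range g1 := fun y => by rw [hc y, not_not]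
  ext σ τ
  rw [liftOp_mul_liftOp_apply g1 g2 hc, liftOp_mul_liftOp_apply g2 g1 hc', mul_comm]

/-- (d) two-block trace formula. -/
theorem trace_liftOp_mul_liftOp (g1 : L1 → L) (g2 : L2 → L) (hg1 : Function.Injective g1)
    (hg2 : Function.Injective g2) (hc : ∀ y, y ∈ Set.range g1 ↔ y ∉ Set.range g2)
    (a : Matrix (L1 → Fin d) (L1 → Fin d) ℂ) (b : Matrix (L2 → Fin d) (L2 → Fin d) ℂ) :
    trace (liftOp g1 a * liftOp g2 b) = trace a * trace b := by
  classical
  have hbij : Function.Bijective (Sum.elim g1 g2) := by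
    constructor
    · rintro (x | x) (x' | x') h
      · exact congrArg Sum.inl (hg1 h)
      · exfalso
        exact ((hc (g1 x)).mp ⟨x, rfl⟩) ⟨x', h.symm⟩
      · exfalso
        exact ((hc (g1 x')).mp ⟨x', rfl⟩) ⟨x, h⟩
      · exact congrArg Sum.inr (hg2 h)
    · intro y
      by_cases hy : y ∈ Set.range g1
      · obtain ⟨x, rfl⟩ := hy
        exact ⟨Sum.inl x, rfl⟩
      · have hy2 : y ∈ Set.range g2 := by
          by_contra h2
          exact hy ((hc y).mpr h2)
        obtain ⟨x, rfl⟩ := hy2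
        exact ⟨Sum.inr x, rfl⟩
  let e : L1 ⊕ L2 ≃ L := Equiv.ofBijective _ hbij
  let Φ : (L → Fin d) ≃ (L1 → Fin d) × (L2 → Fin d) :=
    (Equiv.arrowCongr e.symm (Equiv.refl (Fin d))).trans
      (Equiv.sumArrowEquivProdArrow L1 L2 (Fin d))
  have hΦ : ∀ σ, Φ σ = (σ ∘ g1, σ ∘ g2) := by
    intro σ
    rfl
  simp only [Matrix.trace, Matrix.diag_apply]
  rw [Finset.sum_mul_sum, ← Finset.sum_product']
  apply Fintype.sum_equiv Φ
  intro σ
  rw [liftOp_mul_liftOp_apply g1 g2 hc, hΦ]

end Blocks

section Main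

universe u v w

/-- (3) for blocks indexed by `Fin n`, by induction on `n` (the ambient lattice varies). -/
theorem trace_exp_blocks_fin {L0 : Type v} [Fintype L0] [DecidableEq L0] {d : ℕ}
    (A : Matrix (L0 → Fin d) (L0 → Fin d) ℂ) (n : ℕ) :
    ∀ {L : Type u} [Fintype L] [DecidableEq L] (g : Fin n → L0 → L)
      (_ : Function.Injective (fun p : Fin n × L0 => g p.1 p.2)),
      trace (NormedSpace.exp (∑ i, liftOp (g i) A)) =
        (d : ℂ) ^ (Fintype.card L - n * Fintype.card L0) * (trace (NormedSpace.exp A)) ^ n := by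
  classical
  induction n with
  | zero =>
    intro L _ _ g _
    rw [Finset.univ_eq_empty, Finset.sum_empty, NormedSpace.exp_zero, Matrix.trace_one,
      Fintype.card_fun, Fintype.card_fin, zero_mul, Nat.sub_zero, pow_zero, mul_one]
    push_cast
    rfl
  | succ n ih =>
    intro L _ _ g hg
    have hg0 : Function.Injective (g 0) := by
      intro x x' hx
      have h1 := hg (a₁ := (0, x)) (a₂ := (0, x')) hx
      exact (Prod.ext_iff.mp h1).2
    have hmem : ∀ (i : Fin n) (y : L0), g i.succ y ∉ Set.range (g 0) := by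
      rintro i y ⟨x, hx⟩
      have h1 := hg (a₁ := (0, x)) (a₂ := (i.succ, y)) hx
      exact absurd (Prod.ext_iff.mp h1).1 (Fin.succ_ne_zero i).symm
    have hg' : Function.Injective
        (fun p : Fin n × L0 => (⟨g p.1.succ p.2, hmem p.1 p.2⟩ : {y : L // y ∉ Set.range (g 0)})) := by
      rintro ⟨i, y⟩ ⟨j, y'⟩ hp
      have h1 := hg (a₁ := (i.succ, y)) (a₂ := (j.succ, y')) (congrArg Subtype.val hp)
      have h2 := Prod.ext_iff.mp h1
      exact Prod.ext (Fin.succ_injective _ h2.1) h2.2
    have hval : Function.Injective (Subtype.val : {y : L // y ∉ Set.range (g 0)} → L) :=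
      Subtype.val_injective
    have hfunct : ∀ i : Fin n, liftOp (g i.succ) A =
        liftOp (Subtype.val : {y : L // y ∉ Set.range (g 0)} → L)
          (liftOp (fun y => (⟨g i.succ y, hmem i y⟩ : {y : L // y ∉ Set.range (g 0)})) A) := by
      intro i
      rw [liftOp_comp _ hval]
      rfl
    have hc : ∀ y, y ∈ Set.range (g 0) ↔
        y ∉ Set.range (Subtype.val : {y : L // y ∉ Set.range (g 0)} → L) := by
      intro y
      rw [Subtype.range_coe_subtype]
      simp
    have hih := ih (L := {y : L // y ∉ Set.range (g 0)})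
      (fun i y => (⟨g i.succ y, hmem i y⟩ : {y : L // y ∉ Set.range (g 0)})) hg'
    have hcard : Fintype.card {y : L // y ∉ Set.range (g 0)} =
        Fintype.card L - Fintype.card L0 := by
      rw [Fintype.card_subtype_compl, ← Set.card_range_of_injective hg0]
    rw [Fin.sum_univ_succ]
    simp_rw [hfunct]
    rw [← liftOp_sum, Matrix.exp_add_of_commute _ _ (liftOp_commute _ _ hc _ _),
      ← liftOp_exp (g 0) hg0, ← liftOp_exp _ hval,
      trace_liftOp_mul_liftOp (g 0) _ hg0 hval hc, hih, hcard]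
    have hexp : Fintype.card L - Fintype.card L0 - n * Fintype.card L0 =
        Fintype.card L - (n + 1) * Fintype.card L0 := by
      rw [Nat.sub_sub]
      congr 1
      ring
    rw [hexp, pow_succ]
    ring

/-- (3) MAIN: the trace of the exponential of a sum of translates of one block operator. -/
theorem trace_exp_blocks {I : Type w} {L0 : Type v} {L : Type u} [Fintype I] [Fintype L0]
    [DecidableEq L0] [Fintype L] [DecidableEq L] {d : ℕ} (g : I → L0 → L)
    (hg : Function.Injective (fun p : I × L0 => g p.1 p.2))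
    (A : Matrix (L0 → Fin d) (L0 → Fin d) ℂ) :
    trace (NormedSpace.exp (∑ i, liftOp (g i) A)) =
      (d : ℂ) ^ (Fintype.card L - Fintype.card I * Fintype.card L0) *
        (trace (NormedSpace.exp A)) ^ Fintype.card I := by
  have hinj : Function.Injective
      (fun p : Fin (Fintype.card I) × L0 => g ((Fintype.equivFin I).symm p.1) p.2) := by
    rintro ⟨k, y⟩ ⟨k', y'⟩ hp
    have h1 := hg (a₁ := ((Fintype.equivFin I).symm k, y))
      (a₂ := ((Fintype.equivFin I).symm k', y')) hp
    have h2 := Prod.ext_iff.mp h1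
    exact Prod.ext ((Fintype.equivFin I).symm.injective h2.1) h2.2
  have hmain := trace_exp_blocks_fin A (Fintype.card I)
    (fun k => g ((Fintype.equivFin I).symm k)) hinj
  rw [← hmain]
  congr 2
  exact (Equiv.sum_comp (Fintype.equivFin I).symm (fun i => liftOp (g i) A)).symm

end Main

end Vale.Agent.Lib.P361
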